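import Vale.Agent.P208.Glue

open Vale.Agent.P208

/-- The Lang-Plaut question is equivalent to its uniform finite form, and is decided by compact
countable sets with at most one accumulation point. -/
theorem Vale.Agent.Results.P208.UniformEquivalence.result :
    List.TFAE
      [∀ X : Set Hilb, Doubling X → Embeds X,
        ∀ lam : ℕ, ∃ (k : ℕ) (D : ℝ), ∀ X : Set Hilb, DoublingWith X lam → EmbedsWith X k D,
        ∀ lam : ℕ, ∃ (k : ℕ) (D : ℝ), ∀ F : Finset Hilb,
          DoublingWith (↑F) lam → EmbedsWith (↑F) k D,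
        ∀ X : Set Hilb, IsCompact X → X.Countable →
          (∀ x ∈ X, x ≠ 0 → ∃ ε > 0, ∀ y ∈ X, dist y x < ε → y = x) →
          Doubling X → Embeds X] := by
  tfae_have 2 → 1 := by
    rintro h X ⟨lam, hX⟩
    obtain ⟨k, D, hkD⟩ := h lam
    exact ⟨k, D, hkD X hX⟩
  tfae_have 1 → 4 := fun h X _ _ _ hX => h X hX
  tfae_have 4 → 3 := by
    intro h lam
    by_contra hne
    push Not at hne
    obtain ⟨X, hXc, hXn, hXi, hXd, hXe⟩ := exists_counterexample hne
    exact hXe (h X hXc hXn hXi ⟨_, hXd⟩)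
  tfae_have 3 → 2 := by
    intro h lam
    obtain ⟨k, D, hkD⟩ := h (lam * lam)
    exact ⟨k, D, fun X hX => embedsWith_of_finite fun F hF => hkD F (hX.subset hF)⟩
  tfae_finish
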